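import Vale.Agent.P033.Blocks

namespace Vale.Agent.Results.P033.BlockStatistics

open Vale.Agent.P033

/-- Let `h` be the first row of a real circulant Hadamard matrix of order `n > 4` and let
`Q = ∑ j, h j * h (j+1) * h (j+2) * h (j+3)`.
(1) `2 |Q| ≤ n`, and for all signs `a b c` the number of positions `j` with
`h j * h (j+1) = a`, `h (j+1) * h (j+2) = b`, `h (j+2) * h (j+3) = c` equals `(n + a c Q) / 8`;
hence each of the eight sign-change patterns of four consecutive entries occurs at least `n/16`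
and at most `3n/16` times.
(2) In particular some four cyclically consecutive entries are equal.
(3) If `h` is constant on a sumset `A + S` then `|A| |S| ≤ n`.
(4) `L ≤ n` cyclically consecutive equal entries force `L (L + 2) ≤ 4 n`. -/
theorem result (n : ℕ) [NeZero n] (hn : 4 < n) (h : ZMod n → ℝ)
    (hh : IsCirculantHadamardRow n h) :
    (2 * |∑ j, h j * h (j + 1) * h (j + 2) * h (j + 3)| ≤ n ∧
      ∀ a b c : ℝ, (a = 1 ∨ a = -1) → (b = 1 ∨ b = -1) → (c = 1 ∨ c = -1) →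
        (8 * ((Finset.univ.filter fun j : ZMod n =>
          h j * h (j + 1) = a ∧ h (j + 1) * h (j + 2) = b ∧ h (j + 2) * h (j + 3) = c).card : ℝ)
          = n + a * c * ∑ j, h j * h (j + 1) * h (j + 2) * h (j + 3)) ∧
        (n : ℝ) ≤ 16 * ((Finset.univ.filter fun j : ZMod n =>
          h j * h (j + 1) = a ∧ h (j + 1) * h (j + 2) = b ∧ h (j + 2) * h (j + 3) = c).card : ℝ) ∧
        16 * ((Finset.univ.filter fun j : ZMod n =>
          h j * h (j + 1) = a ∧ h (j + 1) * h (j + 2) = b ∧ h (j + 2) * h (j + 3) = c).card : ℝ)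
          ≤ 3 * n) ∧
    (∃ j : ZMod n, h j = h (j + 1) ∧ h (j + 1) = h (j + 2) ∧ h (j + 2) = h (j + 3)) ∧
    (∀ (A S : Finset (ZMod n)) (σ : ℝ), (∀ a ∈ A, ∀ s ∈ S, h (a + s) = σ) →
      A.card * S.card ≤ n) ∧
    (∀ (j : ZMod n) (L : ℕ), L ≤ n → (∀ i : ℕ, i < L → h (j + i) = h j) →
      L * (L + 2) ≤ 4 * n) := by
  have hQ := quad_bound hn hh
  have hpat : ∀ a b c : ℝ, (a = 1 ∨ a = -1) → (b = 1 ∨ b = -1) → (c = 1 ∨ c = -1) →
        (8 * ((Finset.univ.filter fun j : ZMod n =>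
          h j * h (j + 1) = a ∧ h (j + 1) * h (j + 2) = b ∧ h (j + 2) * h (j + 3) = c).card : ℝ)
          = n + a * c * ∑ j, h j * h (j + 1) * h (j + 2) * h (j + 3)) ∧
        (n : ℝ) ≤ 16 * ((Finset.univ.filter fun j : ZMod n =>
          h j * h (j + 1) = a ∧ h (j + 1) * h (j + 2) = b ∧ h (j + 2) * h (j + 3) = c).card : ℝ) ∧
        16 * ((Finset.univ.filter fun j : ZMod n =>
          h j * h (j + 1) = a ∧ h (j + 1) * h (j + 2) = b ∧ h (j + 2) * h (j + 3) = c).card : ℝ)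
          ≤ 3 * n := by
    intro a b c ha hb hc
    have e := pattern_count hn hh a b c ha hb hc
    have hab := abs_le.mp (show |∑ j, h j * h (j + 1) * h (j + 2) * h (j + 3)| ≤ n / 2 by linarith)
    refine ⟨e, ?_, ?_⟩
    · rcases ha with rfl | rfl <;> rcases hc with rfl | rfl <;> nlinarith [hab.1, hab.2]
    · rcases ha with rfl | rfl <;> rcases hc with rfl | rfl <;> nlinarith [hab.1, hab.2]
  refine ⟨⟨hQ, hpat⟩, ?_, rectangle_bound hh, run_bound hh⟩
  have h1 := (hpat 1 1 1 (Or.inl rfl) (Or.inl rfl) (Or.inl rfl)).2.1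
  have hpos : 0 < (Finset.univ.filter fun j : ZMod n =>
      h j * h (j + 1) = 1 ∧ h (j + 1) * h (j + 2) = 1 ∧ h (j + 2) * h (j + 3) = 1).card := by
    by_contra hc
    have h0 : (Finset.univ.filter fun j : ZMod n =>
      h j * h (j + 1) = 1 ∧ h (j + 1) * h (j + 2) = 1 ∧ h (j + 2) * h (j + 3) = 1).card = 0 := by
      omega
    rw [h0] at h1
    have : (0 : ℝ) < n := by exact_mod_cast (by omega : 0 < n)
    simp at h1
    linarith
  obtain ⟨j, hj⟩ := Finset.card_pos.mp hpos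
  simp only [Finset.mem_filter, Finset.mem_univ, true_and] at hj
  have heq : ∀ x y : ℝ, (x = 1 ∨ x = -1) → (y = 1 ∨ y = -1) → x * y = 1 → x = y := by
    intro x y hx hy hxy
    rcases hx with rfl | rfl <;> rcases hy with rfl | rfl <;> first | rfl | (norm_num at hxy)
  exact ⟨j, heq _ _ (hh.1 _) (hh.1 _) hj.1, heq _ _ (hh.1 _) (hh.1 _) hj.2.1,
    heq _ _ (hh.1 _) (hh.1 _) hj.2.2⟩

end Vale.Agent.Results.P033.BlockStatistics
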